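import Crest.Agent.MS.Ops

/-!
# Row 305 (S0468): cost of heavier samples (blueprint 522, step (7)); deterministic telescoping
Author: helper56.
-/

set_option autoImplicit false
set_option linter.unusedSectionVars false

namespace Crest.Agent.MS

open Set

variable {α : Type*} [Finite α] {M : Matroid α}

/-- One slot: if `Vlo ⊆ Z` and `Z ∪ C ⊆ Vhi`, adding `K` to the barrier `Z` costs at most
`[r(Vlo ∪ K) - r(Vlo)] - [r(Vhi ∪ K) - r(Vhi)]`. -/
theorem cost_slot (M : Matroid α) {Vlo Vhi Z C K : Set α} (h1 : Vlo ⊆ Z) (h2 : Z ∪ C ⊆ Vhi) :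
    (rk M (Z ∪ C) : ℤ) - rk M Z - (rk M (Z ∪ K ∪ C) - rk M (Z ∪ K)) ≤
      (rk M (Vlo ∪ K) - rk M Vlo : ℤ) - (rk M (Vhi ∪ K) - rk M Vhi) := by
  have e1 := rk_marg M h1 K
  have e2 := rk_marg M h2 K
  have e3 : Z ∪ K ∪ C = Z ∪ C ∪ K := by
    rw [Set.union_assoc, Set.union_comm K C, Set.union_assoc]
  rw [e3]
  omega

/-- **COST LEMMA.** `V` = chain of flats shifted by one (`V 0` = everything, `V (m+1) = W_m`),
`Z m` = barrier of slot `m`, `C m` = candidates of slot `m`, `V (m+2) ⊆ Z m`, `Z m ∪ C m ⊆ V m`;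
active slots `m = 2 t + q`. Adding `K` to all barriers costs at most `|K|` in total. -/
theorem cost_lemma (M : Matroid α) (V Z C : ℕ → Set α) (K : Set α) (q n : ℕ)
    (hlo : ∀ m, V (m + 2) ⊆ Z m) (hhi : ∀ m, Z m ∪ C m ⊆ V m) :
    ∑ t ∈ Finset.range n, ((rk M (Z (2 * t + q) ∪ C (2 * t + q)) : ℤ) - rk M (Z (2 * t + q))) ≤
      ∑ t ∈ Finset.range n, ((rk M (Z (2 * t + q) ∪ K ∪ C (2 * t + q)) : ℤ) -
        rk M (Z (2 * t + q) ∪ K)) + K.ncard := by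
  set f : ℕ → ℤ := fun t => (rk M (V (2 * t + q) ∪ K) : ℤ) - rk M (V (2 * t + q)) with hf
  have key : ∀ t, ((rk M (Z (2 * t + q) ∪ C (2 * t + q)) : ℤ) - rk M (Z (2 * t + q))) -
      ((rk M (Z (2 * t + q) ∪ K ∪ C (2 * t + q)) : ℤ) - rk M (Z (2 * t + q) ∪ K)) ≤
      f (t + 1) - f t := by
    intro t
    have := cost_slot M (K := K) (hlo (2 * t + q)) (hhi (2 * t + q))
    have e : 2 * (t + 1) + q = 2 * t + q + 2 := by ring
    simp only [hf, e]
    exact this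
  have h1 : ∑ t ∈ Finset.range n, (((rk M (Z (2 * t + q) ∪ C (2 * t + q)) : ℤ) -
      rk M (Z (2 * t + q))) - ((rk M (Z (2 * t + q) ∪ K ∪ C (2 * t + q)) : ℤ) -
      rk M (Z (2 * t + q) ∪ K))) ≤ f n - f 0 := by
    rw [← Finset.sum_range_sub f n]
    exact Finset.sum_le_sum fun t _ => key t
  rw [Finset.sum_sub_distrib] at h1
  have h2 : f n ≤ K.ncard := by
    have := rk_union_le M (V (2 * n + q)) K
    simp only [hf]
    omega
  have h3 : 0 ≤ f 0 := by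
    have := rk_mono M (subset_union_left : V (2 * 0 + q) ⊆ V (2 * 0 + q) ∪ K)
    simp only [hf]
    omega
  linarith

/-- version with an arbitrary larger barrier `Z' m` lying between: if `Z m ⊆ Z' m ⊆ cl(Z m ∪ K)` then
`∑ [r(Z ∪ C) - r(Z)] ≤ ∑ [r(Z' ∪ C) - r(Z')] + |K|`. -/
theorem cost_lemma' (M : Matroid α) (V Z Z' C : ℕ → Set α) (K : Set α) (q n : ℕ)
    (hlo : ∀ m, V (m + 2) ⊆ Z m) (hhi : ∀ m, Z m ∪ C m ⊆ V m)
    (hZ' : ∀ m, Z' m ⊆ M.closure (Z m ∪ K)) :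
    ∑ t ∈ Finset.range n, ((rk M (Z (2 * t + q) ∪ C (2 * t + q)) : ℤ) - rk M (Z (2 * t + q))) ≤
      ∑ t ∈ Finset.range n, ((rk M (Z' (2 * t + q) ∪ C (2 * t + q)) : ℤ) -
        rk M (Z' (2 * t + q))) + K.ncard := by
  refine (cost_lemma M V Z C K q n hlo hhi).trans ?_
  have : ∑ t ∈ Finset.range n, ((rk M (Z (2 * t + q) ∪ K ∪ C (2 * t + q)) : ℤ) -
        rk M (Z (2 * t + q) ∪ K)) ≤ ∑ t ∈ Finset.range n,
        ((rk M (Z' (2 * t + q) ∪ C (2 * t + q)) : ℤ) - rk M (Z' (2 * t + q))) := by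
    refine Finset.sum_le_sum fun t _ => ?_
    set m := 2 * t + q
    have h1 := rk_marg M (hZ' m) (C m)
    rw [rk_union_closure_left, rk_closure] at h1
    omega
  linarith

end Crest.Agent.MS
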