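import Crest.Agent.MS.FOp
import Crest.Agent.MS.Edmonds

/-! Row 305: the encoding lemma (idea 499). -/

set_option autoImplicit false

namespace Crest.Agent.MS
namespace RF

variable {α : Type*} [DecidableEq α] [Fintype α] (ρ : RF α)

/-- every colour class is independent over `Y` (outside `Y`) -/
def GoodQ {lam : ℕ} (Q : Fin lam → Finset α) (Y : Finset α) : Prop :=
  ∀ a, ρ.IndO Y (Q a \ Y)

open Classical in
/-- smallest flat containing `Y` which is good for `Q` (intersection of all of them) -/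
noncomputable def DQ {lam : ℕ} (Q : Fin lam → Finset α) (Y : Finset α) : Finset α :=
  (Finset.univ.filter (fun X => Y ⊆ X ∧ ρ.IsFlat X ∧ ρ.GoodQ Q X)).inf id

/-- decoding of a chain `V 0 ⊆ V 1 ⊆ ...` -/
noncomputable def dec {lam : ℕ} (J : Finset α) (Q : Fin lam → Finset α) (V : ℕ → Finset α) :
    ℕ → Finset α
  | 0 => ρ.cl (V 0 ∪ J)
  | t + 1 => ρ.DQ Q (dec J Q V t ∪ V (t + 1))

/-- One step: the circuits which force the closure from `Y₀` up to `G`.
Proof: strong induction on `r G - r Y₀`. If `Y₀ ≠ G` then by `hdense` (with `Y = Y₀`)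
`|S ∩ (G \ Y₀)| > lam * r(G|Y₀)`, so some `I a \ Y₀` is dependent over `Y₀`; take a minimal dependent
subset `C` (`|C| = r(C|Y₀) + 1 ≤ 2 r(C|Y₀)` as `Y₀` is a flat); `Y₁ = cl (Y₀ ∪ C)`; apply the
induction hypothesis to `Y₁` and put `C` into `Q a`. -/
theorem step_encode (lam : ℕ) (S Z Y₀ G : Finset α) (hY₀ : ρ.IsFlat Y₀) (hG : ρ.IsFlat G)
    (hYG : Y₀ ⊆ G) (hZY : Z ⊆ Y₀)
    (hdense : ∀ Y, Y₀ ⊆ Y → ρ.IsFlat Y → Y ⊂ G → lam * ρ.r G < lam * ρ.r Y + (S ∩ (G \ Y)).card)
    (I : Fin lam → Finset α) (hI : ∀ a, I a ⊆ G)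
    (hcov : S ∩ (G \ Z) ⊆ Finset.univ.biUnion I) :
    ∃ Q : Fin lam → Finset α, (∀ a, Q a ⊆ I a) ∧
      (∑ a, (Q a).card) + 2 * ρ.r Y₀ ≤ 2 * ρ.r G ∧
      ∀ Y, Y₀ ⊆ Y → ρ.IsFlat Y → ρ.GoodQ Q Y → G ⊆ Y := by
  classical
  -- induction on the rank difference
  have main : ∀ n : ℕ, ∀ Y₀ : Finset α, ρ.r G - ρ.r Y₀ ≤ n → ρ.IsFlat Y₀ → Y₀ ⊆ G → Z ⊆ Y₀ →
      (∀ Y, Y₀ ⊆ Y → ρ.IsFlat Y → Y ⊂ G →
        lam * ρ.r G < lam * ρ.r Y + (S ∩ (G \ Y)).card) →
      ∃ Q : Fin lam → Finset α, (∀ a, Q a ⊆ I a) ∧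
      (∑ a, (Q a).card) + 2 * ρ.r Y₀ ≤ 2 * ρ.r G ∧
      ∀ Y, Y₀ ⊆ Y → ρ.IsFlat Y → ρ.GoodQ Q Y → G ⊆ Y := by
    intro n
    induction n with
    | zero =>
      intro Y₀ hn hY₀ hYG hZY hd
      have h1 : Y₀ = G := IsFlat.eq_of_r_le ρ hY₀ hYG (by omega)
      refine ⟨fun _ => ∅, fun a => Finset.empty_subset _, ?_, ?_⟩
      · rw [h1]; simp
      · intro Y hY _ _
        rwa [← h1]
    | succ n ih =>
      intro Y₀ hn hY₀ hYG hZY hd
      by_cases hne : Y₀ = G
      · refine ⟨fun _ => ∅, fun a => Finset.empty_subset _, ?_, ?_⟩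
        · rw [hne]; simp
        · intro Y hY _ _
          rwa [← hne]
      have hss : Y₀ ⊂ G := Finset.ssubset_iff_subset_ne.mpr ⟨hYG, hne⟩
      have h1 := hd Y₀ (Finset.Subset.refl _) hY₀ hss
      -- some colour class is dependent
      obtain ⟨a, ha⟩ : ∃ a, ¬ ρ.IndO Y₀ (I a \ Y₀) := by
        by_contra hall
        push Not at hall
        have h2 : ∀ a, (I a \ Y₀).card + ρ.r Y₀ ≤ ρ.r G := by
          intro a
          have h3 := hall a
          unfold IndO at h3
          have h4 := ρ.mono' (Finset.union_subset hYG (Finset.sdiff_subset.trans (hI a)) :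
            Y₀ ∪ I a \ Y₀ ⊆ G)
          omega
        have h3 : (S ∩ (G \ Y₀)).card ≤ ∑ a, (I a \ Y₀).card := by
          refine le_trans (Finset.card_le_card ?_) Finset.card_biUnion_le
          intro x hx
          rw [Finset.mem_inter, Finset.mem_sdiff] at hx
          have h4 : x ∈ S ∩ (G \ Z) := by
            rw [Finset.mem_inter, Finset.mem_sdiff]
            exact ⟨hx.1, hx.2.1, fun h => hx.2.2 (hZY h)⟩
          have h5 := hcov h4
          rw [Finset.mem_biUnion] at h5 ⊢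
          obtain ⟨a, h6, h7⟩ := h5
          exact ⟨a, h6, Finset.mem_sdiff.2 ⟨h7, hx.2.2⟩⟩
        have h4 : ∑ a : Fin lam, (I a \ Y₀).card + lam * ρ.r Y₀ ≤ lam * ρ.r G := by
          have h5 := Finset.sum_le_sum fun (a : Fin lam) (_ : a ∈ Finset.univ) => h2 a
          rw [Finset.sum_add_distrib] at h5
          simpa using h5
        omega
      -- minimal dependent subset
      obtain ⟨C, hC, hmin⟩ : ∃ C, (C ⊆ I a \ Y₀ ∧ ¬ ρ.IndO Y₀ C) ∧
          ∀ C', C' ⊂ C → ρ.IndO Y₀ C' := by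
        have hfin : ∃ m, ∃ C, C.card = m ∧ C ⊆ I a \ Y₀ ∧ ¬ ρ.IndO Y₀ C :=
          ⟨_, _, rfl, Finset.Subset.refl _, ha⟩
        obtain ⟨C, hCm, hC1, hC2⟩ := Nat.find_spec hfin
        refine ⟨C, ⟨hC1, hC2⟩, fun C' hC' => ?_⟩
        by_contra hdep
        have h5 := Finset.card_lt_card hC'
        rw [hCm] at h5
        exact Nat.find_min hfin h5 ⟨C', rfl, hC'.1.trans hC1, hdep⟩
      obtain ⟨e, he⟩ : C.Nonempty := by
        rw [Finset.nonempty_iff_ne_empty]
        intro h0
        exact hC.2 (h0 ▸ ρ.indO_empty Y₀)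
      have hCG : C ⊆ G := hC.1.trans (Finset.sdiff_subset.trans (hI a))
      have heY : e ∉ Y₀ := (Finset.mem_sdiff.1 (hC.1 he)).2
      have hcard : C.card ≤ 2 * (ρ.r (Y₀ ∪ C) - ρ.r Y₀) ∧ ρ.r Y₀ < ρ.r (Y₀ ∪ C) := by
        have h5 := hmin (C.erase e) (Finset.erase_ssubset he)
        unfold IndO at h5
        have h6 := Finset.card_erase_add_one he
        have h7 := ρ.mono' (Finset.union_subset_union (Finset.Subset.refl Y₀)
          (Finset.erase_subset e C))
        have h8 : ρ.r Y₀ < ρ.r (Y₀ ∪ C) := by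
          have h9 : e ∉ ρ.cl Y₀ := by rwa [hY₀]
          rw [notMem_cl] at h9
          have h10 : insert e Y₀ ⊆ Y₀ ∪ C :=
            Finset.insert_subset (Finset.mem_union_right _ he) Finset.subset_union_left
          have := ρ.mono' h10
          omega
        omega
      have hY₁G : ρ.cl (Y₀ ∪ C) ⊆ G := IsFlat.cl_subset ρ hG (Finset.union_subset hYG hCG)
      have hYY : Y₀ ⊆ ρ.cl (Y₀ ∪ C) := Finset.subset_union_left.trans (ρ.subset_cl _)
      obtain ⟨Q', hQ1, hQ2, hQ3⟩ := ih (ρ.cl (Y₀ ∪ C)) (by rw [r_cl]; omega) (ρ.isFlat_cl _) hY₁G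
        (hZY.trans hYY) (fun Y hY => hd Y (hYY.trans hY))
      rw [r_cl] at hQ2
      refine ⟨Function.update Q' a (Q' a ∪ C), ?_, ?_, ?_⟩
      · intro b
        by_cases hb : b = a
        · subst hb
          rw [Function.update_self]
          exact Finset.union_subset (hQ1 b) (hC.1.trans Finset.sdiff_subset)
        · rw [Function.update_of_ne hb]
          exact hQ1 b
      · have h5 : ∑ b, (Function.update Q' a (Q' a ∪ C) b).card ≤ ∑ b, (Q' b).card + C.card := by
          have h6 : ∀ b, (Function.update Q' a (Q' a ∪ C) b).card ≤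
              (Q' b).card + if b = a then C.card else 0 := by
            intro b
            by_cases hb : b = a
            · subst hb
              rw [Function.update_self, if_pos rfl]
              exact Finset.card_union_le _ _
            · rw [Function.update_of_ne hb, if_neg hb, add_zero]
          refine (Finset.sum_le_sum fun b _ => h6 b).trans ?_
          rw [Finset.sum_add_distrib, Finset.sum_ite_eq' Finset.univ a, if_pos (Finset.mem_univ a)]
        omega
      · intro Y hY hYf hgood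
        have hsub : ∀ b, Q' b ⊆ Function.update Q' a (Q' a ∪ C) b := by
          intro b
          by_cases hb : b = a
          · subst hb
            rw [Function.update_self]
            exact Finset.subset_union_left
          · rw [Function.update_of_ne hb]
        have hgood' : ρ.GoodQ Q' Y := fun b =>
          IndO.subset ρ (hgood b) (Finset.sdiff_subset_sdiff (hsub b) (Finset.Subset.refl _))
        have hCY : C ⊆ Y := by
          by_contra hCY
          have h5 := hgood a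
          rw [Function.update_self] at h5
          have h6 : ρ.IndO Y (C \ Y) := IndO.subset ρ h5
            (Finset.sdiff_subset_sdiff Finset.subset_union_right (Finset.Subset.refl _))
          have h7 : C ∩ Y ⊂ C := by
            rw [Finset.ssubset_iff_subset_ne]
            exact ⟨Finset.inter_subset_left, fun h => hCY (Finset.inter_eq_left.1 h)⟩
          have h8 := hmin _ h7
          have h9 : ρ.IndO (Y₀ ∪ (C ∩ Y)) (C \ Y) :=
            IndO.anti ρ h6 (Finset.union_subset hY Finset.inter_subset_right)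
          have h10 := IndO.union ρ h8 h9
          have h11 : C ∩ Y ∪ C \ Y = C := by
            rw [Finset.union_comm]
            exact Finset.sdiff_union_inter C Y
          rw [h11] at h10
          exact hC.2 h10
        exact hQ3 Y (IsFlat.cl_subset ρ hYf (Finset.union_subset hY hCY)) hYf hgood'
  exact main _ Y₀ le_rfl hY₀ hYG hZY hdense

/-- characterisation of `DQ` -/
theorem DQ_eq {lam : ℕ} (Q : Fin lam → Finset α) {Y G : Finset α} (h1 : Y ⊆ G)
    (h2 : ρ.IsFlat G) (h3 : ρ.GoodQ Q G)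
    (h4 : ∀ X, Y ⊆ X → ρ.IsFlat X → ρ.GoodQ Q X → G ⊆ X) : ρ.DQ Q Y = G := by
  classical
  unfold DQ
  apply le_antisymm
  · refine Finset.inf_le (b := G) (f := id) ?_
    rw [Finset.mem_filter]
    exact ⟨Finset.mem_univ _, h1, h2, h3⟩
  · refine Finset.le_inf fun X hX => ?_
    rw [Finset.mem_filter] at hX
    exact h4 X hX.2.1 hX.2.2.1 hX.2.2.2

/-- the downward induction of the encoding lemma -/
private theorem Encode_down (lam : ℕ) (S : Finset α) (V : ℕ → Finset α)
    (hV : Monotone V) (h : ℕ) : ∀ d ≤ h, ∃ Q : Fin lam → Finset α, (∀ a, Q a ⊆ S) ∧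
      (∀ a, Disjoint (Q a) (ρ.F lam S (V (h - d)))) ∧
      (∀ a b, a ≠ b → Disjoint (Q a) (Q b)) ∧
      (∀ a, ρ.IndO (ρ.F lam S (V (h - d))) (Q a)) ∧
      lam * (∑ a, (Q a).card) + 2 * (S ∩ ρ.F lam S (V (h - d))).card ≤ 2 * S.card ∧
      ∀ s, h - d ≤ s → s < h → ρ.GoodQ Q (ρ.F lam S (V (s + 1))) ∧
        ∀ X, ρ.F lam S (V s) ∪ V (s + 1) ⊆ X → ρ.IsFlat X → ρ.GoodQ Q X →
          ρ.F lam S (V (s + 1)) ⊆ X := by
  classical
  intro d
  induction d with
  | zero =>
    intro _
    refine ⟨fun _ => ∅, fun _ => Finset.empty_subset _, fun _ => Finset.disjoint_empty_left _,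
      fun _ _ _ => Finset.disjoint_empty_left _, fun _ => ρ.indO_empty _, ?_, ?_⟩
    · have := Finset.card_le_card (Finset.inter_subset_left : S ∩ ρ.F lam S (V (h - 0)) ⊆ S)
      simp only [Finset.card_empty, Finset.sum_const_zero, mul_zero, zero_add]
      omega
    · intro s hs hs'
      omega
  | succ d ih =>
    intro hd
    obtain ⟨Q, q1, q2, q3, q4, q5, q6⟩ := ih (by omega)
    obtain ⟨t, ht⟩ : ∃ t, t = h - (d + 1) := ⟨_, rfl⟩
    have ht1 : h - d = t + 1 := by omega
    rw [← ht]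
    rw [ht1] at q2 q4 q5 q6
    set Z := ρ.F lam S (V t) with hZ
    set G := ρ.F lam S (V (t + 1)) with hG
    have hZG : Z ⊆ G := ρ.F_mono lam S (hV (Nat.le_succ t))
    have hVG : V (t + 1) ⊆ G := ρ.subset_F lam S _
    have hGf : ρ.IsFlat G := ρ.F_flat lam S _
    -- Edmonds
    obtain ⟨I, i1, i2, i3, i4⟩ := ρ.edmonds_cover Z (S ∩ (G \ Z)) lam (by
      intro X hX
      have h1 := ρ.F_sparse lam S (V t) (Z ∪ X) Finset.subset_union_left
      have h2 : X ⊆ S ∩ ((Z ∪ X) \ Z) := by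
        intro x hx
        have h3 := hX hx
        rw [Finset.mem_inter, Finset.mem_sdiff] at h3 ⊢
        exact ⟨h3.1, Finset.mem_union_right _ hx, h3.2.2⟩
      have h3 := Finset.card_le_card h2
      rw [← hZ] at h1
      omega)
    have hY₀G : ρ.cl (Z ∪ V (t + 1)) ⊆ G := IsFlat.cl_subset ρ hGf (Finset.union_subset hZG hVG)
    have hVY : V (t + 1) ⊆ ρ.cl (Z ∪ V (t + 1)) :=
      Finset.subset_union_right.trans (ρ.subset_cl _)
    have hZY : Z ⊆ ρ.cl (Z ∪ V (t + 1)) := Finset.subset_union_left.trans (ρ.subset_cl _)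
    have hIG : ∀ a, I a ⊆ G := fun a =>
      (i1 a).trans (Finset.inter_subset_right.trans Finset.sdiff_subset)
    obtain ⟨Q', p1, p2, p3⟩ := ρ.step_encode lam S Z (ρ.cl (Z ∪ V (t + 1))) G (ρ.isFlat_cl _) hGf
      hY₀G hZY (fun Y hY hYf hYG => ρ.F_dense lam S (V (t + 1)) Y (hVY.trans hY) hYf hYG) I hIG i4
    have hQ'S : ∀ a, Q' a ⊆ S := fun a => (p1 a).trans ((i1 a).trans Finset.inter_subset_left)
    have hQ'G : ∀ a, Q' a ⊆ G := fun a => (p1 a).trans (hIG a)
    have hQ'Z : ∀ a, Disjoint (Q' a) Z := fun a => by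
      rw [Finset.disjoint_left]
      intro x hx hxZ
      have := i1 a (p1 a hx)
      rw [Finset.mem_inter, Finset.mem_sdiff] at this
      exact this.2.2 hxZ
    have hQQ' : ∀ a b, Disjoint (Q' a) (Q b) := fun a b => by
      rw [Finset.disjoint_left]
      intro x hx hxb
      exact (Finset.disjoint_left.1 (q2 b)) hxb (hQ'G a hx)
    -- bigger flats do not see `Q'`
    have hsd : ∀ (Y : Finset α), G ⊆ Y → ∀ a, (Q' a ∪ Q a) \ Y = Q a \ Y := by
      intro Y hY a
      ext x
      simp only [Finset.mem_sdiff, Finset.mem_union]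
      constructor
      · rintro ⟨hx | hx, hxY⟩
        · exact absurd (hY (hQ'G a hx)) hxY
        · exact ⟨hx, hxY⟩
      · rintro ⟨hx, hxY⟩
        exact ⟨Or.inr hx, hxY⟩
    refine ⟨fun a => Q' a ∪ Q a, fun a => Finset.union_subset (hQ'S a) (q1 a), ?_, ?_, ?_, ?_, ?_⟩
    · intro a
      rw [Finset.disjoint_union_left]
      exact ⟨hQ'Z a, (q2 a).mono_right hZG⟩
    · intro a b hab
      rw [Finset.disjoint_union_left, Finset.disjoint_union_right, Finset.disjoint_union_right]
      exact ⟨⟨(i3 a b hab).mono (p1 a) (p1 b), hQQ' a b⟩, (hQQ' b a).symm, q3 a b hab⟩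
    · intro a
      refine IndO.union ρ (IndO.subset ρ (i2 a) (p1 a)) ?_
      exact IndO.anti ρ (q4 a) (Finset.union_subset hZG (hQ'G a))
    · -- cost
      have h1 : ∑ a, (Q' a ∪ Q a).card ≤ ∑ a, (Q' a).card + ∑ a, (Q a).card := by
        rw [← Finset.sum_add_distrib]
        exact Finset.sum_le_sum fun a _ => Finset.card_union_le _ _
      have h2 := (ρ.F_isMinz lam S (V (t + 1))).2.2 (ρ.cl (Z ∪ V (t + 1))) hVY (ρ.isFlat_cl _)
      unfold phi at h2
      rw [← hG] at h2
      have h3 : (S ∩ Z).card ≤ (S ∩ ρ.cl (Z ∪ V (t + 1))).card :=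
        Finset.card_le_card (Finset.inter_subset_inter (Finset.Subset.refl _) hZY)
      have h4 : lam * ρ.r G + (S ∩ Z).card ≤
          lam * ρ.r (ρ.cl (Z ∪ V (t + 1))) + (S ∩ G).card := by
        zify
        have h3' : ((S ∩ Z).card : ℤ) ≤ ((S ∩ ρ.cl (Z ∪ V (t + 1))).card : ℤ) := by
          exact_mod_cast h3
        linarith
      have h5 : lam * (∑ a, (Q' a).card) + 2 * (lam * ρ.r (ρ.cl (Z ∪ V (t + 1)))) ≤
          2 * (lam * ρ.r G) := by
        have := Nat.mul_le_mul_left lam p2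
        calc _ = lam * (∑ a, (Q' a).card + 2 * ρ.r (ρ.cl (Z ∪ V (t + 1)))) := by ring
          _ ≤ lam * (2 * ρ.r G) := this
          _ = _ := by ring
      have h6 : lam * (∑ a, (Q' a ∪ Q a).card) ≤
          lam * (∑ a, (Q' a).card) + lam * (∑ a, (Q a).card) := by
        rw [← mul_add]
        exact Nat.mul_le_mul_left lam h1
      show lam * (∑ a, (Q' a ∪ Q a).card) + 2 * (S ∩ Z).card ≤ 2 * S.card
      omega
    · intro s hs hsh
      by_cases hst : s = t
      · subst hst
        constructor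
        · intro a
          show ρ.IndO G ((Q' a ∪ Q a) \ G)
          rw [hsd G (Finset.Subset.refl _) a]
          exact IndO.subset ρ (q4 a) Finset.sdiff_subset
        · intro X hX hXf hgood
          refine p3 X (IsFlat.cl_subset ρ hXf hX) hXf fun a => ?_
          exact IndO.subset ρ (hgood a)
            (Finset.sdiff_subset_sdiff Finset.subset_union_left (Finset.Subset.refl _))
      · obtain ⟨g1, g2⟩ := q6 s (by omega) hsh
        constructor
        · intro a
          show ρ.IndO _ ((Q' a ∪ Q a) \ _)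
          rw [hsd _ (ρ.F_mono lam S (hV (by omega))) a]
          exact g1 a
        · intro X hX hXf hgood
          refine g2 X hX hXf fun a => ?_
          exact IndO.subset ρ (hgood a)
            (Finset.sdiff_subset_sdiff Finset.subset_union_right (Finset.Subset.refl _))

/-- **Encoding lemma.** -/
theorem encode (lam : ℕ) (hlam : 0 < lam) (S : Finset α) (V : ℕ → Finset α) (hV : Monotone V)
    (h : ℕ) :
    ∃ (J : Finset α) (Q : Fin lam → Finset α), J ⊆ S ∧ (∀ a, Q a ⊆ S) ∧
      (∀ a, Disjoint J (Q a)) ∧ (∀ a b, a ≠ b → Disjoint (Q a) (Q b)) ∧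
      lam * (J.card + ∑ a, (Q a).card) ≤ 2 * S.card ∧
      ∀ t ≤ h, ρ.dec J Q V t = ρ.F lam S (V t) := by
  classical
  obtain ⟨Q, q1, q2, q3, q4, q5, q6⟩ := Encode_down ρ lam S V hV h h le_rfl
  rw [Nat.sub_self] at q2 q4 q5 q6
  obtain ⟨J, j1, j2, j3⟩ := ρ.exists_basis (V 0) (S ∩ ρ.F lam S (V 0))
  have hcl : ρ.cl (V 0 ∪ J) = ρ.F lam S (V 0) := by
    apply Finset.Subset.antisymm
    · exact IsFlat.cl_subset ρ (ρ.F_flat lam S _)
        (Finset.union_subset (ρ.subset_F lam S _) (j1.trans Finset.inter_subset_right))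
    · refine (ρ.F_subset_cl lam hlam S (V 0)).trans ?_
      rw [cl_subset_cl_iff]
      exact Finset.union_subset (Finset.subset_union_left.trans (ρ.subset_cl _)) j3
  refine ⟨J, Q, j1.trans Finset.inter_subset_left, q1, ?_, q3, ?_, ?_⟩
  · intro a
    exact ((q2 a).mono_right (j1.trans Finset.inter_subset_right)).symm
  · have h1 := ρ.F_rank lam S (V 0)
    have h2 : (S ∩ (ρ.F lam S (V 0) \ V 0)).card ≤ (S ∩ ρ.F lam S (V 0)).card :=
      Finset.card_le_card (Finset.inter_subset_inter (Finset.Subset.refl _) Finset.sdiff_subset)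
    have h3 : ρ.r (ρ.F lam S (V 0)) = ρ.r (V 0) + J.card := by
      rw [← hcl, r_cl]
      exact j2
    rw [h3, mul_add] at h1
    rw [mul_add]
    omega
  · intro t ht
    induction t with
    | zero => exact hcl
    | succ t ih =>
      have h1 := ih (by omega)
      show ρ.DQ Q (ρ.dec J Q V t ∪ V (t + 1)) = _
      rw [h1]
      obtain ⟨g1, g2⟩ := q6 t (Nat.zero_le t) (by omega)
      refine ρ.DQ_eq Q ?_ (ρ.F_flat lam S _) g1 g2
      exact Finset.union_subset (ρ.F_mono lam S (hV (Nat.le_succ t))) (ρ.subset_F lam S _)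

end RF
end Crest.Agent.MS
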